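import Mathlib

/-!
Polynomials with a constant nonzero directional derivative, and quadratic polynomials without
critical points, are coordinates.
-/

namespace Vale.Agent.P295

open MvPolynomial Finset

variable {σ : Type} [Fintype σ]

/-- Some automorphism of the polynomial ring sends `f` to a variable. -/
def IsCoord {τ : Type} (f : MvPolynomial τ ℂ) : Prop :=
  ∃ e : MvPolynomial τ ℂ ≃ₐ[ℂ] MvPolynomial τ ℂ, ∃ i, e f = X i

/-- `f` becomes a coordinate after adjoining some positive number of new variables. -/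
def IsStableCoord (f : MvPolynomial σ ℂ) : Prop :=
  ∃ m : ℕ, 0 < m ∧ IsCoord (rename (Sum.inl : σ → σ ⊕ Fin m) f)

/-- The partial derivatives of `f` have no common zero. -/
def NoCrit (f : MvPolynomial σ ℂ) : Prop :=
  ∀ p : σ → ℂ, ∃ i, eval p (pderiv i f) ≠ 0

theorem chain {S : Type} [CommRing S] [Algebra ℂ S] (φ : MvPolynomial σ ℂ →ₐ[ℂ] S)
    (d : MvPolynomial σ ℂ → S) (hadd : ∀ a b, d (a + b) = d a + d b) (hC : ∀ c, d (C c) = 0)
    (hmul : ∀ a b, d (a * b) = φ a * d b + φ b * d a) (f : MvPolynomial σ ℂ) :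
    d f = ∑ i, φ (pderiv i f) * d (X i) := by
  classical
  induction f using MvPolynomial.induction_on with
  | C c => simp [hC]
  | add p q hp hq => simp [hadd, hp, hq, add_mul, sum_add_distrib]
  | mul_X p n hp =>
    rw [hmul, hp, mul_sum]
    simp only [Derivation.leibniz, smul_eq_mul, map_add, map_mul, add_mul, sum_add_distrib]
    congr 1
    · simp [pderiv_X, Pi.single_apply, apply_ite φ, ite_mul, mul_ite]
    · exact sum_congr rfl fun i _ => by ring

theorem noCrit_of_stable {f : MvPolynomial σ ℂ} (hf : IsStableCoord f) : NoCrit f := by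
  classical
  obtain ⟨m, -, e, i0, he⟩ := hf
  intro p
  by_contra hcon
  push Not at hcon
  let g := rename (Sum.inl : σ → σ ⊕ Fin m) f
  let p' : σ ⊕ Fin m → ℂ := Sum.elim p 0
  have hzero : ∀ j, eval p' (pderiv j g) = 0 := by
    rintro (i | k)
    · simp only [g, pderiv_rename Sum.inl_injective, eval_rename]
      exact hcon i
    · rw [pderiv_eq_zero_of_notMem_vars]
      · simp
      · intro hk
        have := vars_rename _ _ hk
        simp at this
  let q : σ ⊕ Fin m → ℂ := fun j => eval p' (e.symm (X j))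
  have hq : (aeval q : MvPolynomial (σ ⊕ Fin m) ℂ →ₐ[ℂ] ℂ) = (aeval p').comp e.symm.toAlgHom := by
    refine algHom_ext fun j => ?_
    simp [q, aeval_eq_eval]
  have hev : ∀ h, eval q (e h) = eval p' h := fun h => by
    have := AlgHom.congr_fun hq (e h)
    simpa [aeval_eq_eval] using this
  have h1 := chain (σ := σ ⊕ Fin m) e.toAlgHom (fun h => pderiv i0 (e h))
    (fun a b => by simp) (fun c => by
      have : e (C c) = C c := e.commutes c
      simp [this])
    (fun a b => by simp [Derivation.leibniz]) g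
  have he' : e g = X i0 := he
  rw [he', pderiv_X_self] at h1
  have h2 := congrArg (eval q) h1
  simp [hev, hzero] at h2

theorem noCrit_of_cylinder {A : Type} [CommRing A] [Algebra ℂ A]
    (e : Polynomial A ≃ₐ[ℂ] MvPolynomial σ ℂ) : NoCrit (e Polynomial.X) := by
  intro p
  by_contra hcon
  push Not at hcon
  have h1 := chain (AlgHom.id ℂ (MvPolynomial σ ℂ))
    (fun h => e (Polynomial.derivative (e.symm h))) (fun a b => by simp) (fun c => by
      have : e.symm (C c) = algebraMap ℂ (Polynomial A) c := e.symm.commutes c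
      simp [this, Polynomial.algebraMap_apply])
    (fun a b => by simp [Polynomial.derivative_mul]; ring) (e Polynomial.X)
  simp only [AlgEquiv.symm_apply_apply, Polynomial.derivative_X, map_one] at h1
  have h2 := congrArg (eval p) h1
  simp [hcon] at h2

theorem isCoord_of_directional {f : MvPolynomial σ ℂ} (v : σ → ℂ) (c : ℂ) (hc : c ≠ 0)
    (h : ∑ i, C (v i) * pderiv i f = C c) : IsCoord f := by
  classical
  obtain ⟨i0, hi0⟩ : ∃ i, v i ≠ 0 := by
    by_contra hcon
    push Not at hcon
    have h0 : (C c : MvPolynomial σ ℂ) = 0 := by rw [← h]; simp [hcon]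
    exact hc (C_injective _ _ (h0.trans C_0.symm))
  let w : σ → ℂ := fun j => v j / v i0
  let sh : ℂ → MvPolynomial σ ℂ →ₐ[ℂ] MvPolynomial σ ℂ := fun s =>
    aeval fun j => if j = i0 then X i0 else X j + C (s * w j) * X i0
  have hsh : ∀ s, (sh s).comp (sh (-s)) = AlgHom.id ℂ _ := fun s => by
    refine algHom_ext fun j => ?_
    by_cases hj : j = i0
    · simp [sh, hj]
    · simp [sh, hj]
  let θ : MvPolynomial σ ℂ ≃ₐ[ℂ] MvPolynomial σ ℂ :=
    AlgEquiv.ofAlgHom (sh 1) (sh (-1)) (hsh 1) (by simpa using hsh (-1))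
  let k : ℂ := c / v i0
  have hk : k ≠ 0 := div_ne_zero hc hi0
  have hθ : pderiv i0 (θ f) = C k := by
    have h1 := chain θ.toAlgHom (fun a => pderiv i0 (θ a)) (fun a b => by simp)
      (fun a => by
        have : θ (C a) = C a := θ.commutes a
        simp [this])
      (fun a b => by simp [Derivation.leibniz]) f
    rw [h1]
    have hX : ∀ j, pderiv i0 (θ (X j)) = C (w j) := fun j => by
      have hθX : θ (X j) = if j = i0 then X i0 else X j + C (w j) * X i0 := by
        show sh 1 (X j) = _
        rw [aeval_X, one_mul]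
      rw [hθX]
      by_cases hj : j = i0
      · subst hj
        rw [if_pos rfl, pderiv_X_self]
        simp only [w]
        rw [div_self hi0, map_one]
      · rw [if_neg hj, map_add, pderiv_X_of_ne hj, pderiv_C_mul, pderiv_X_self, zero_add,
          mul_one]
    have h2 := congrArg θ h
    rw [map_sum, show θ (C c) = C c from θ.commutes c] at h2
    calc ∑ j, θ (pderiv j f) * pderiv i0 (θ (X j))
        = C (v i0)⁻¹ * ∑ j, θ (C (v j) * pderiv j f) := by
          rw [mul_sum]
          refine sum_congr rfl fun j _ => ?_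
          rw [hX j, map_mul, show θ (C (v j)) = C (v j) from θ.commutes _, ← mul_assoc, ← map_mul]
          simp [w, div_eq_inv_mul]
          ring
      _ = C k := by rw [h2, ← map_mul]; simp [k, div_eq_inv_mul]
  let g := θ f - C k * X i0
  have hg : i0 ∉ g.vars := by
    intro hmem
    obtain ⟨d, hd, hdi⟩ := (mem_vars_iff_mem_support i0).1 hmem
    have h1 : coeff (d - Finsupp.single i0 1) (pderiv i0 g) = 0 := by
      simp [g, hθ, map_sub]
    rw [coeff_pderiv, tsub_add_cancel_of_le] at h1
    · rcases mul_eq_zero.1 h1 with h2 | h2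
      · exact (mem_support_iff.1 hd) h2
      · exact Nat.cast_add_one_ne_zero ((d - Finsupp.single i0 1 : σ →₀ ℕ) i0) h2
    · rw [Finsupp.single_le_iff]
      exact Nat.one_le_iff_ne_zero.2 (Finsupp.mem_support_iff.1 hdi)
  let η₁ : MvPolynomial σ ℂ →ₐ[ℂ] MvPolynomial σ ℂ :=
    aeval (Function.update X i0 (C k⁻¹ * (X i0 - g)))
  let η₂ : MvPolynomial σ ℂ →ₐ[ℂ] MvPolynomial σ ℂ :=
    aeval (Function.update X i0 (C k * X i0 + g))
  have hfix : ∀ a : MvPolynomial σ ℂ, aeval (Function.update X i0 a) g = g := by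
    intro a
    conv_rhs => rw [← aeval_X_left_apply g]
    refine eval₂Hom_congr' rfl (fun j hj _ => ?_) rfl
    rw [Function.update_of_ne]
    exact fun q => hg (q ▸ hj)
  have hkk : (C k⁻¹ * C k : MvPolynomial σ ℂ) = 1 := by rw [← map_mul, inv_mul_cancel₀ hk, map_one]
  have h12 : η₁.comp η₂ = AlgHom.id ℂ _ := by
    refine algHom_ext fun j => ?_
    by_cases hj : j = i0
    · subst hj
      simp only [η₁, η₂, AlgHom.comp_apply, aeval_X, Function.update_self, map_add, map_mul,
        hfix, algHom_C, MvPolynomial.algebraMap_eq, AlgHom.id_apply]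
      linear_combination (X j - g) * hkk
    · simp [η₁, η₂, hj]
  have h21 : η₂.comp η₁ = AlgHom.id ℂ _ := by
    refine algHom_ext fun j => ?_
    by_cases hj : j = i0
    · subst hj
      simp only [η₁, η₂, AlgHom.comp_apply, aeval_X, Function.update_self, map_sub, map_mul,
        hfix, algHom_C, MvPolynomial.algebraMap_eq, AlgHom.id_apply]
      linear_combination X j * hkk
    · simp [η₁, η₂, hj]
  refine ⟨θ.trans (AlgEquiv.ofAlgHom η₁ η₂ h12 h21), i0, ?_⟩
  show η₁ (θ f) = X i0
  have hθf : θ f = C k * X i0 + g := by simp [g]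
  rw [hθf]
  simp only [η₁, map_add, map_mul, hfix, aeval_X, Function.update_self, algHom_C,
    MvPolynomial.algebraMap_eq]
  linear_combination (X i0 - g) * hkk

theorem isCoord_of_quadratic {f : MvPolynomial σ ℂ} (hdeg : f.totalDegree ≤ 2) (hf : NoCrit f) :
    IsCoord f := by
  classical
  have hlow : ∀ (i : σ) (d : σ →₀ ℕ), 1 < ∑ j, d j → coeff d (pderiv i f) = 0 := by
    intro i d hd
    by_contra hne
    rw [coeff_pderiv] at hne
    have hmem : d + Finsupp.single i 1 ∈ f.support := mem_support_iff.2 (left_ne_zero_of_mul hne)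
    have := (le_totalDegree hmem).trans hdeg
    rw [Finsupp.sum_fintype _ _ (fun _ => rfl)] at this
    simp [sum_add_distrib] at this
    omega
  let M : Matrix σ σ ℂ := fun i j => coeff (Finsupp.single j 1) (pderiv i f)
  let b : σ → ℂ := fun i => coeff 0 (pderiv i f)
  have haff : ∀ i, pderiv i f = C (b i) + ∑ j, C (M i j) * X j := by
    intro i
    ext d
    simp only [coeff_add, coeff_sum, coeff_C_mul, coeff_X, coeff_C, mul_ite, mul_one, mul_zero]
    rcases Nat.lt_or_ge 1 (∑ j, d j) with hd | hd
    · rw [hlow i d hd, if_neg, zero_add, sum_eq_zero]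
      · intro j _
        rw [if_neg]
        rintro rfl
        simp [Finsupp.single_apply] at hd
      · rintro rfl
        simp at hd
    · by_cases h0 : d = 0
      · subst h0
        simp [b, Finsupp.single_eq_zero]
      · obtain ⟨j, hj⟩ := Finsupp.support_nonempty_iff.2 h0
        rw [Finsupp.mem_support_iff] at hj
        have hdj : d = Finsupp.single j 1 := by
          refine Finsupp.ext fun l => ?_
          have h1 := single_le_sum (f := fun l => d l) (fun _ _ => Nat.zero_le _) (mem_univ j)
          by_cases hl : l = j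
          · subst hl; simp; omega
          · rw [Finsupp.single_eq_of_ne hl]
            have h2 := sum_le_sum_of_subset (f := fun l => d l) (subset_univ ({j, l} : Finset σ))
            rw [sum_pair (Ne.symm hl)] at h2
            omega
        subst hdj
        simp [M, Finsupp.single_left_inj (one_ne_zero), eq_comm (a := (0 : σ →₀ ℕ))]
  have hev : ∀ p i, eval p (pderiv i f) = b i + M.mulVecLin p i := fun p i => by
    rw [haff i]
    simp [Matrix.mulVec, dotProduct]
  have hnot : b ∉ LinearMap.range M.mulVecLin := by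
    rintro ⟨p, hp⟩
    obtain ⟨i, hi⟩ := hf (-p)
    rw [hev, map_neg, hp] at hi
    simp at hi
  obtain ⟨φ, hφb, hφM⟩ := Submodule.exists_dual_map_eq_bot_of_notMem hnot inferInstance
  let v : σ → ℂ := fun i => φ (Pi.single i 1)
  have hφ : ∀ y : σ → ℂ, φ y = ∑ i, v i * y i := fun y => by
    conv_lhs => rw [pi_eq_sum_univ' y, map_sum]
    refine sum_congr rfl fun i _ => ?_
    rw [map_smul]
    simp [v, mul_comm]
  refine isCoord_of_directional v (φ b) hφb (MvPolynomial.funext fun p => ?_)
  have hz : φ (M.mulVecLin p) = 0 := by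
    have : φ (M.mulVecLin p) ∈ (LinearMap.range M.mulVecLin).map φ :=
      Submodule.mem_map_of_mem (LinearMap.mem_range_self _ p)
    rwa [hφM, Submodule.mem_bot] at this
  simp only [eval_sum, eval_mul, eval_C, hev]
  rw [hφ] at hz
  rw [hφ]
  simp only [mul_add, sum_add_distrib, hz, add_zero]

theorem cancel_of_coord {n : ℕ} {A : Type} [CommRing A] [Algebra ℂ A]
    (e : Polynomial A ≃ₐ[ℂ] MvPolynomial (Fin (n + 1)) ℂ) (h : IsCoord (e Polynomial.X)) :
    Nonempty (A ≃ₐ[ℂ] MvPolynomial (Fin n) ℂ) := by
  obtain ⟨a, i0, ha⟩ := h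
  let E := e.trans a
  have hE : E Polynomial.X = X i0 := ha
  let π : MvPolynomial (Fin (n + 1)) ℂ →ₐ[ℂ] MvPolynomial (Fin n) ℂ :=
    aeval (i0.insertNth 0 fun j => X j)
  let up : A →ₐ[ℂ] MvPolynomial (Fin n) ℂ :=
    π.comp (E.toAlgHom.comp ((Polynomial.CAlgHom : A →ₐ[A] Polynomial A).restrictScalars ℂ))
  let ev : Polynomial A →ₐ[ℂ] A := (Polynomial.aeval (0 : A)).restrictScalars ℂ
  let down : MvPolynomial (Fin n) ℂ →ₐ[ℂ] A :=
    aeval fun j => ev (E.symm (X (i0.succAbove j)))
  have hpe : ∀ q : Polynomial A, π (E q) = up (ev q) := by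
    intro q
    conv_lhs => rw [← Polynomial.X_mul_divX_add q]
    simp [up, ev, π, hE, Polynomial.coe_aeval_eq_eval, Polynomial.coeff_zero_eq_eval_zero]
  have hdp : down.comp π = ev.comp E.symm.toAlgHom := by
    refine algHom_ext fun i => ?_
    rcases Fin.eq_self_or_eq_succAbove i0 i with h' | ⟨j, rfl⟩
    · have : E.symm (X i0) = Polynomial.X := by rw [← hE, AlgEquiv.symm_apply_apply]
      rw [h']
      simp [π, this, ev]
    · simp [π, down]
  refine ⟨AlgEquiv.ofAlgHom up down (algHom_ext fun j => ?_) (AlgHom.ext fun x => ?_)⟩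
  · have := hpe (E.symm (X (i0.succAbove j)))
    simp only [AlgEquiv.apply_symm_apply] at this
    simp only [AlgHom.comp_apply, AlgHom.id_apply, down, aeval_X, ← this]
    simp [π]
  · have := AlgHom.congr_fun hdp (E (Polynomial.C x))
    simp only [AlgHom.comp_apply] at this
    simp only [AlgHom.comp_apply, AlgHom.id_apply, up]
    simpa [ev] using this

end Vale.Agent.P295
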